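import Mathlib

/-!
The space of unimodular lattices and the packets of a field.
-/

namespace Vale.Agent.P007

open scoped nonZeroDivisors MatrixGroups
open NumberField

/-- The group of real matrices of determinant one. -/
abbrev SLR (n : ℕ) := Matrix.SpecialLinearGroup (Fin n) ℝ

/-- The subgroup of integral matrices. -/
noncomputable def integralMatrices (n : ℕ) : Subgroup (SLR n) :=
  (Matrix.SpecialLinearGroup.map (n := Fin n) (Int.castRingHom ℝ)).range

/-- Right cosets of the integral matrices, with the quotient topology. -/
abbrev LatticeSpace (n : ℕ) := Quotient (QuotientGroup.rightRel (integralMatrices n))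

/-- The coset of a matrix. -/
noncomputable def proj {n : ℕ} (g : SLR n) : LatticeSpace n := Quotient.mk'' g

/-- Right translation. -/
noncomputable def rmul {n : ℕ} (h : SLR n) : LatticeSpace n → LatticeSpace n :=
  Quotient.map' (fun g => g * h) fun a b hab => by
    rw [QuotientGroup.rightRel_apply] at hab ⊢
    simpa [mul_assoc] using hab

/-- The integral combinations of the rows of a matrix. -/
def rowLattice {n : ℕ} (g : SLR n) : Set (Fin n → ℝ) :=
  {x | ∃ z : Fin n → ℤ, x = Matrix.vecMul (fun i => (z i : ℝ)) g.1}

/-- All points of the packet of the maximal order: the lattices c σ(I) w a for invertible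
fractional ideals I, positive scalars c, sign matrices w and diagonal a of determinant one. -/
def packet {n : ℕ} {K : Type} [Field K] [NumberField K] (σ : Fin n → (K →+* ℝ)) :
    Set (LatticeSpace n) :=
  {x | ∃ g : SLR n, proj g = x ∧ ∃ I : (FractionalIdeal (𝓞 K)⁰ K)ˣ, ∃ c : ℝ, 0 < c ∧
    ∃ w : Fin n → ℝ, (∀ j, w j = 1 ∨ w j = -1) ∧ ∃ u : Fin n → ℝ, ∑ j, u j = 0 ∧
      rowLattice g = (fun α j => c * w j * Real.exp (u j) * σ j α) ''
        {α | α ∈ (I : FractionalIdeal (𝓞 K)⁰ K)}}

end Vale.Agent.P007
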