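import Mathlib

/-!
For n = d * k a sequence of distinct totally real fields of degree n sharing one subfield of degree d.
-/

namespace Vale.Agent.P007

open Polynomial IntermediateField NumberField Filter

/-- The cyclotomic field of level N inside the complex numbers. -/
noncomputable def Cy (N : ℕ) : IntermediateField ℚ ℂ :=
  IntermediateField.adjoin ℚ {Complex.exp (2 * Real.pi * Complex.I / N)}

instance cy_cyclotomic (N : ℕ) [NeZero N] : IsCyclotomicExtension {N} ℚ (Cy N) :=
  (IntermediateField.isCyclotomicExtension_singleton_iff_eq_adjoin N ℚ ℂ (Cy N)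
    (Complex.isPrimitiveRoot_exp N (NeZero.ne N))).2 rfl

instance cy_finite (N : ℕ) [NeZero N] : FiniteDimensional ℚ (Cy N) :=
  IsCyclotomicExtension.finiteDimensional {N} ℚ (Cy N)

instance cy_galois (N : ℕ) [NeZero N] : IsGalois ℚ (Cy N) :=
  IsCyclotomicExtension.isGalois {N} ℚ (Cy N)

lemma finrank_cy (N : ℕ) [NeZero N] : Module.finrank ℚ (Cy N) = N.totient :=
  IsCyclotomicExtension.finrank (Cy N) (cyclotomic.irreducible_rat (Nat.pos_of_neZero N))

lemma cy_sup {a b : ℕ} [NeZero a] [NeZero b] (h : a.Coprime b) : Cy a ⊔ Cy b = Cy (a * b) := by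
  have h1 := @IntermediateField.isCyclotomicExtension_lcm_sup ℚ ℂ _ _ _ a b (Cy a) (Cy b)
    (cy_cyclotomic a) (cy_cyclotomic b) _ _
  rw [Nat.Coprime.lcm_eq_mul h] at h1
  exact @IntermediateField.isCyclotomicExtension_eq {a * b} ℚ ℂ _ _ _ _ _ h1 (cy_cyclotomic (a * b))

lemma cy_disjoint {a b : ℕ} [NeZero a] [NeZero b] (h : a.Coprime b) :
    (Cy a).LinearDisjoint (Cy b) := by
  refine LinearDisjoint.of_finrank_sup ?_
  rw [cy_sup h, finrank_cy, finrank_cy, finrank_cy, Nat.totient_mul h]

/-- Complex conjugation as an automorphism over the rationals. -/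
noncomputable def conjQ : ℂ ≃ₐ[ℚ] ℂ := Complex.conjAe.restrictScalars ℚ

/-- The real numbers as an intermediate field. -/
noncomputable def realField : IntermediateField ℚ ℂ where
  carrier := {z | conjQ z = z}
  mul_mem' := fun {a b} ha hb => show conjQ (a * b) = a * b by rw [map_mul, ha, hb]
  add_mem' := fun {a b} ha hb => show conjQ (a + b) = a + b by rw [map_add, ha, hb]
  algebraMap_mem' := fun r => conjQ.commutes r
  inv_mem' := fun a ha => show conjQ a⁻¹ = a⁻¹ by rw [map_inv₀, ha]

/-- Complex conjugation restricted to a cyclotomic field. -/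
noncomputable def cyConj (N : ℕ) [NeZero N] : Gal(↥(Cy N)/ℚ) := conjQ.restrictNormal (Cy N)

lemma cyConj_apply (N : ℕ) [NeZero N] (x : Cy N) : ((cyConj N x : Cy N) : ℂ) = conjQ x :=
  conjQ.restrictNormal_commutes (Cy N) x

lemma embedding_real {N : ℕ} [NeZero N] {x : Cy N} (hx : (x : ℂ) ∈ realField)
    (φ : ↥(Cy N) →+* ℂ) : star (φ x) = φ x := by
  have := IsCyclotomicExtension.isAbelianGalois {N} ℚ (Cy N)
  set g : Gal(↥(Cy N)/ℚ) := Normal.algHomEquivAut ℚ ℂ (Cy N) φ.toRatAlgHom with hg
  have hgx : ∀ y, ((g y : Cy N) : ℂ) = φ y := fun y => by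
    have : (Normal.algHomEquivAut ℚ ℂ (Cy N)).symm g = φ.toRatAlgHom := Equiv.symm_apply_apply _ _
    exact AlgHom.congr_fun this y
  have hcx : cyConj N x = x := Subtype.ext ((cyConj_apply N x).trans hx)
  calc star (φ x) = conjQ (g x : Cy N) := by rw [hgx]; rfl
    _ = ((cyConj N * g) x : Cy N) := (cyConj_apply N _).symm
    _ = ((g * cyConj N) x : Cy N) := by
        rw [(IsMulCommutative.is_comm (M := Gal(↥(Cy N)/ℚ))).comm (cyConj N) g]
    _ = φ x := by rw [AlgEquiv.mul_apply, hcx, hgx]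

/-- A real subfield of a cyclotomic field is totally real. -/
lemma totallyReal_of_le {N : ℕ} [NeZero N] {F : IntermediateField ℚ ℂ} (h : F ≤ Cy N)
    (hr : F ≤ realField) : IsTotallyReal F := by
  let F' : IntermediateField ℚ (Cy N) := F.restrictScalars ℚ |>.comap (Cy N).val
  have hF' : F'.toSubfield ≤ maximalRealSubfield (Cy N) := fun x hx φ =>
    embedding_real (hr hx) φ
  have : IsTotallyReal F'.toSubfield := isTotallyReal_iff_le_maximalRealSubfield.2 hF'
  refine IsTotallyReal.ofRingEquiv (F := ↥F'.toSubfield)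
    { toFun := fun x => ⟨((x : Cy N) : ℂ), x.2⟩
      invFun := fun y => ⟨⟨y, h y.2⟩, y.2⟩
      left_inv := fun x => rfl
      right_inv := fun y => rfl
      map_mul' := fun x y => rfl
      map_add' := fun x y => rfl }

/-- A real subfield of degree d of a cyclotomic field of prime level q with 2d dividing q - 1. -/
lemma exists_real_subfield {q d : ℕ} (hq : q.Prime) (hd : 2 * d ∣ q - 1) :
    ∃ F : IntermediateField ℚ ℂ, F ≤ Cy q ∧ F ≤ realField ∧ Module.finrank ℚ F = d := by
  have : NeZero q := ⟨hq.ne_zero⟩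
  have : Fact q.Prime := ⟨hq⟩
  let e := IsCyclotomicExtension.autEquivPow (Cy q) (cyclotomic.irreducible_rat hq.pos (n := q))
  have hcyc : IsCyclic Gal(↥(Cy q)/ℚ) :=
    isCyclic_of_surjective e.symm.toMonoidHom e.symm.surjective
  have := IsCyclotomicExtension.isAbelianGalois {q} ℚ (Cy q)
  obtain ⟨m, hm⟩ := hd
  have hcard : Nat.card Gal(↥(Cy q)/ℚ) = 2 * d * m := by
    rw [IsGalois.card_aut_eq_finrank, finrank_cy, Nat.totient_prime hq, hm]
  have hm0 : 2 * d * m ≠ 0 := by have := hq.two_le; omega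
  let P : Gal(↥(Cy q)/ℚ) →* Gal(↥(Cy q)/ℚ) :=
    { toFun := fun g => g ^ (2 * m)
      map_one' := one_pow _
      map_mul' := fun a b => Commute.mul_pow
        ((IsMulCommutative.is_comm (M := Gal(↥(Cy q)/ℚ))).comm a b) _ }
  set H := P.ker with hH
  have hHcard : Nat.card H = 2 * m := by
    let _ : CommGroup Gal(↥(Cy q)/ℚ) := IsCyclic.commGroup
    have : H = (powMonoidHom (2 * m) : Gal(↥(Cy q)/ℚ) →* _).ker := by
      ext g; simp [H, P, MonoidHom.mem_ker, powMonoidHom_apply]
    rw [this, IsCyclic.card_powMonoidHom_ker, hcard]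
    exact Nat.gcd_eq_right ⟨d, by ring⟩
  have hc : cyConj q ∈ H := by
    show cyConj q ^ (2 * m) = 1
    have h2 : cyConj q ^ 2 = 1 := by
      ext x
      rw [pow_two, AlgEquiv.mul_apply, cyConj_apply, cyConj_apply]
      simp [conjQ]
    rw [pow_mul, h2, one_pow]
  refine ⟨IntermediateField.lift (IntermediateField.fixedField H), IntermediateField.lift_le _,
    ?_, ?_⟩
  · rintro _ ⟨x, hx, rfl⟩
    show conjQ (x : ℂ) = x
    rw [← cyConj_apply]
    exact congrArg Subtype.val ((IntermediateField.mem_fixedField_iff H x).1 hx _ hc)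
  · rw [← (IntermediateField.liftAlgEquiv _).toLinearEquiv.finrank_eq]
    have h1 := IntermediateField.finrank_fixedField_eq_card H
    have h2 := Module.finrank_mul_finrank ℚ ↥(IntermediateField.fixedField H) ↥(Cy q)
    rw [h1, hHcard, finrank_cy, Nat.totient_prime hq, hm,
      show 2 * d * m = d * (2 * m) by ring] at h2
    exact mul_right_cancel₀ (by intro h0; exact hm0 (by rw [show 2 * d * m = d * (2 * m) by ring, h0, mul_zero])) h2

/-- The sequence of fields. -/
lemma exists_fields {d k : ℕ} (hd : 2 ≤ d) (hk : 2 ≤ k) :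
    ∃ (F : IntermediateField ℚ ℂ) (K : ℕ → IntermediateField ℚ ℂ) (hK : ∀ i, NumberField (K i)),
      Module.finrank ℚ F = d ∧ (∀ i, F ≤ K i) ∧
      (∀ i, IsTotallyReal (K i) ∧ Module.finrank ℚ (K i) = d * k) ∧
      Tendsto (fun i => |@NumberField.discr (K i) _ (hK i)|) atTop atTop := by
  classical
  obtain ⟨q, hq, -, hqd⟩ := Nat.exists_prime_gt_modEq_one (k := 2 * d) 0 (by omega)
  obtain ⟨F, hFq, hFr, hFd⟩ := exists_real_subfield hq (d := d)
    ((Nat.modEq_iff_dvd' hq.one_lt.le).1 hqd.symm)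
  have hinf : {p : ℕ | p.Prime ∧ q < p ∧ 2 * k ∣ p - 1}.Infinite := by
    refine Set.infinite_of_not_bddAbove fun ⟨B, hB⟩ => ?_
    obtain ⟨p, hp, hpB, hpm⟩ := Nat.exists_prime_gt_modEq_one (k := 2 * k) (max B q) (by omega)
    have := hB ⟨hp, (le_max_right _ _).trans_lt hpB, (Nat.modEq_iff_dvd' hp.one_lt.le).1 hpm.symm⟩
    omega
  let p : ℕ → ℕ := fun i => hinf.natEmbedding _ i
  have hp : ∀ i, (p i).Prime ∧ q < p i ∧ 2 * k ∣ p i - 1 := fun i => (hinf.natEmbedding _ i).2
  have hpinj : Function.Injective p := fun a b h =>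
    (hinf.natEmbedding _).injective (Subtype.ext h)
  choose L hLp hLr hLd using fun i => exists_real_subfield (hp i).1 (hp i).2.2
  have : NeZero q := ⟨hq.ne_zero⟩
  have hne : ∀ i, NeZero (p i) := fun i => ⟨(hp i).1.ne_zero⟩
  have hcop : ∀ i, q.Coprime (p i) := fun i =>
    (Nat.coprime_primes hq (hp i).1).2 (hp i).2.1.ne
  have hle : ∀ i, F ⊔ L i ≤ Cy (q * p i) := fun i => by
    have := hne i
    rw [← cy_sup (hcop i)]
    exact sup_le_sup hFq (hLp i)
  have hfin : ∀ i, FiniteDimensional ℚ ↥(F ⊔ L i) := fun i => by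
    have := hne i
    exact Module.Finite.of_injective (IntermediateField.inclusion (hle i)).toLinearMap
      (IntermediateField.inclusion (hle i)).injective
  have hdeg : ∀ i, Module.finrank ℚ ↥(F ⊔ L i) = d * k := fun i => by
    have := hne i
    rw [((cy_disjoint (hcop i)).of_le hFq (hLp i)).finrank_sup, hFd, hLd]
  have hKinj : Function.Injective fun i => F ⊔ L i := by
    intro a b hab
    by_contra hne'
    have := hne a
    have := hne b
    have hc : (p a).Coprime (q * p b) := Nat.Coprime.mul_right (hcop a).symm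
      ((Nat.coprime_primes (hp a).1 (hp b).1).2 fun h => hne' (hpinj h))
    have h1 : L a ≤ Cy (q * p b) := (le_sup_right.trans (le_of_eq hab)).trans (hle b)
    have h2 : L a ≤ (⊥ : IntermediateField ℚ ℂ) := by
      rw [← (cy_disjoint hc).inf_eq_bot]; exact le_inf (hLp a) h1
    have h3 := hLd a
    rw [le_bot_iff.1 h2, IntermediateField.finrank_bot] at h3
    omega
  refine ⟨F, fun i => F ⊔ L i, fun i => @NumberField.mk _ _ inferInstance (hfin i), hFd,
    fun i => le_sup_left, fun i => ⟨?_, hdeg i⟩, ?_⟩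
  · have := hne i
    exact totallyReal_of_le (hle i) (sup_le hFr (hLr i))
  · refine tendsto_atTop.2 fun B => ?_
    rw [← Nat.cofinite_eq_atTop, eventually_cofinite]
    let K' : ℕ → {F : IntermediateField ℚ ℂ // FiniteDimensional ℚ F} :=
      fun i => ⟨F ⊔ L i, hfin i⟩
    refine ((NumberField.finite_of_discr_bdd ℂ B.natAbs).preimage
      (fun a _ b _ h => hKinj (congrArg Subtype.val h) : Set.InjOn K' _)).subset fun i hi => ?_
    simp only [Set.mem_ofPred_eq, not_le] at hi
    exact hi.le.trans Int.le_natAbs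

end Vale.Agent.P007
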