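import Mathlib
import Vale.Agent.P007.Defs
import Vale.Agent.P007.Fields

/-!
Packets of fields with a common intermediate field stay in a fixed proper closed set.
-/

namespace Vale.Agent.P007

open scoped nonZeroDivisors
open NumberField MeasureTheory Topology Filter Set Matrix

variable {n : ℕ}

instance : IsClosed ((integralMatrices n : Subgroup (SLR n)) : Set (SLR n)) := by
  rw [integralMatrices, MonoidHom.coe_range]
  exact (Int.isClosedEmbedding_coe_real.specialLinearGroup_map (n := Fin n)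
    (f := Int.castRingHom ℝ)).isClosed_range

/-- Inversion identifies right cosets with left cosets. -/
noncomputable def toLeft (n : ℕ) : LatticeSpace n ≃ₜ SLR n ⧸ integralMatrices n where
  toEquiv := QuotientGroup.quotientRightRelEquivQuotientLeftRel _
  continuous_toFun := isQuotientMap_quotient_mk'.continuous_iff.2
    (continuous_quotient_mk'.comp (continuous_inv (G := SLR n)))
  continuous_invFun := isQuotientMap_quotient_mk'.continuous_iff.2
    (continuous_quotient_mk'.comp (continuous_inv (G := SLR n)))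

lemma space_facts (n : ℕ) :
    T2Space (LatticeSpace n) ∧ LocallyCompactSpace (LatticeSpace n) ∧
      SecondCountableTopology (LatticeSpace n) := by
  have h1 : SecondCountableTopology (Matrix (Fin n) (Fin n) ℝ) :=
    inferInstanceAs (SecondCountableTopology (Fin n → Fin n → ℝ))
  have hL : LocallyCompactSpace (Matrix (Fin n) (Fin n) ℝ) :=
    inferInstanceAs (LocallyCompactSpace (Fin n → Fin n → ℝ))
  have he : IsClosedEmbedding (Subtype.val : SLR n → Matrix (Fin n) (Fin n) ℝ) :=
    Matrix.SpecialLinearGroup.isClosedEmbedding_val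
  have : LocallyCompactSpace (SLR n) := he.locallyCompactSpace
  have : SecondCountableTopology (SLR n) := he.isEmbedding.secondCountableTopology
  exact ⟨(toLeft n).symm.t2Space, (toLeft n).isClosedEmbedding.locallyCompactSpace,
    (toLeft n).isEmbedding.secondCountableTopology⟩

lemma continuous_rmul (h : SLR n) : Continuous (rmul h) :=
  Continuous.quotient_map' (continuous_id.mul continuous_const) _

/-- The matrices g with g diag(r) g⁻¹ integral. -/
def stable (r : Fin n → ℝ) : Set (SLR n) :=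
  {g | ∃ N : Matrix (Fin n) (Fin n) ℤ,
    g.1 * diagonal r * (g⁻¹ : SLR n).1 = N.map (fun z : ℤ => (z : ℝ))}

lemma isClosed_stable (r : Fin n → ℝ) : IsClosed (stable r) := by
  have hc : IsClosed (range fun N : Matrix (Fin n) (Fin n) ℤ => N.map (fun z : ℤ => (z : ℝ))) :=
    (Int.isClosedEmbedding_coe_real.matrix_map).isClosed_range
  have hf : Continuous fun g : SLR n => g.1 * diagonal r * (g⁻¹ : SLR n).1 :=
    (continuous_subtype_val.matrix_mul continuous_const).matrix_mul
      (continuous_subtype_val.comp (continuous_inv (G := SLR n)))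
  convert hc.preimage hf using 1
  ext g
  exact ⟨fun ⟨N, hN⟩ => ⟨N, hN.symm⟩, fun ⟨N, hN⟩ => ⟨N, hN.symm⟩⟩

lemma stable_invariant (r : Fin n → ℝ) {g g' : SLR n} (h : g' * g⁻¹ ∈ integralMatrices n)
    (hg : g ∈ stable r) : g' ∈ stable r := by
  obtain ⟨N, hN⟩ := hg
  obtain ⟨γ, hγ⟩ := h
  have hg' : g' = Matrix.SpecialLinearGroup.map (Int.castRingHom ℝ) γ * g := by
    rw [hγ, inv_mul_cancel_right]
  refine ⟨γ.1 * N * (γ⁻¹ : Matrix.SpecialLinearGroup (Fin n) ℤ).1, ?_⟩
  have hmul : ∀ A B : Matrix (Fin n) (Fin n) ℤ, (A * B).map (fun z : ℤ => (z : ℝ))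
      = A.map (fun z : ℤ => (z : ℝ)) * B.map (fun z : ℤ => (z : ℝ)) := fun A B =>
    Matrix.map_mul (f := Int.castRingHom ℝ)
  have hγ1 : ∀ δ : Matrix.SpecialLinearGroup (Fin n) ℤ,
      (Matrix.SpecialLinearGroup.map (Int.castRingHom ℝ) δ).1 = δ.1.map (fun z : ℤ => (z : ℝ)) :=
    fun δ => rfl
  rw [hmul, hmul, ← hN, hg', _root_.mul_inv_rev, ← map_inv, Matrix.SpecialLinearGroup.coe_mul,
    Matrix.SpecialLinearGroup.coe_mul, hγ1, hγ1]
  noncomm_ring

/-- The closed set of lattices stable under one of finitely many diagonal matrices. -/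
def stableSet (R : Set (Fin n → ℝ)) : Set (LatticeSpace n) := proj '' ⋃ r ∈ R, stable r

lemma isClosed_stableSet {R : Set (Fin n → ℝ)} (hR : R.Finite) : IsClosed (stableSet R) := by
  have hpre : proj ⁻¹' stableSet R = ⋃ r ∈ R, stable r := by
    refine Subset.antisymm ?_ (subset_preimage_image _ _)
    rintro g ⟨g', hg', he⟩
    obtain ⟨r, hr, hgr⟩ := mem_iUnion₂.1 hg'
    exact mem_iUnion₂.2 ⟨r, hr, stable_invariant r
      (QuotientGroup.rightRel_apply.1 (Quotient.exact' he)) hgr⟩
  rw [← isQuotientMap_quotient_mk'.isClosed_preimage]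
  exact hpre ▸ hR.isClosed_biUnion fun r _ => isClosed_stable r

lemma one_not_mem {R : Set (Fin n → ℝ)} (hn : 0 < n) (hR : ∀ r ∈ R, ∀ j, ∀ z : ℤ, r j ≠ z) :
    proj (1 : SLR n) ∉ stableSet R := by
  rintro ⟨g, hg, he⟩
  obtain ⟨r, hr, hgr⟩ := mem_iUnion₂.1 hg
  obtain ⟨N, hN⟩ := stable_invariant r (QuotientGroup.rightRel_apply.1 (Quotient.exact' he)) hgr
  refine hR r hr ⟨0, hn⟩ (N ⟨0, hn⟩ ⟨0, hn⟩) ?_
  have := congrFun (congrFun hN ⟨0, hn⟩) ⟨0, hn⟩
  simpa using this

section Field

variable {K : Type} [Field K] [NumberField K]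

lemma packet_subset (σ : Fin n → (K →+* ℝ)) {R : Set (Fin n → ℝ)} {θ : 𝓞 K}
    (hθ : (fun j => σ j (θ : K)) ∈ R) : packet σ ⊆ stableSet R := by
  rintro _ ⟨g, rfl, I, c, hc, w, hw, u, hu, hL⟩
  refine ⟨g, mem_iUnion₂.2 ⟨_, hθ, ?_⟩, rfl⟩
  have hrow : ∀ i, ∃ z : Fin n → ℤ,
      (fun j => σ j (θ : K) * g.1 i j) = vecMul (fun l => (z l : ℝ)) g.1 := by
    intro i
    have h1 : g.1 i ∈ rowLattice g := by
      refine ⟨Pi.single i 1, ?_⟩
      have : (fun l => ((Pi.single i (1 : ℤ) : Fin n → ℤ) l : ℝ)) = Pi.single i (1 : ℝ) := by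
        ext l; by_cases h : l = i <;> simp [h]
      rw [this, Matrix.single_one_vecMul]
      rfl
    rw [hL] at h1
    obtain ⟨α, hα, he⟩ := h1
    have h2 : (fun j => c * w j * Real.exp (u j) * σ j ((θ : K) * α)) ∈ rowLattice g := by
      rw [hL]
      refine ⟨_, ?_, rfl⟩
      have := Submodule.smul_mem ((I : FractionalIdeal (𝓞 K)⁰ K) : Submodule (𝓞 K) K) θ hα
      rwa [Algebra.smul_def] at this
    obtain ⟨z, hz⟩ := h2
    refine ⟨z, ?_⟩
    rw [← hz, ← he]
    ext j
    simp only [map_mul]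
    ring
  choose z hz using hrow
  refine ⟨Matrix.of z, ?_⟩
  have h : g.1 * diagonal (fun j => σ j (θ : K))
      = (Matrix.of z).map (fun x : ℤ => (x : ℝ)) * g.1 := by
    ext i j
    rw [mul_diagonal, mul_comm]
    exact congrFun (hz i) j
  rw [h, mul_assoc, ← Matrix.SpecialLinearGroup.coe_mul, mul_inv_cancel]
  simp

lemma packet_nonempty (hn : 0 < n) (σ : Fin n → (K →+* ℝ)) (hσ : Function.Injective σ)
    (hdeg : Module.finrank ℚ K = n) : (packet σ).Nonempty := by
  classical
  let I : (FractionalIdeal (𝓞 K)⁰ K)ˣ := 1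
  let e : Module.Free.ChooseBasisIndex ℤ I.val ≃ Fin n :=
    Fintype.equivFinOfCardEq (by
      rw [← Module.finrank_eq_card_basis (basisOfFractionalIdeal K I), hdeg])
  let b := (basisOfFractionalIdeal K I).reindex e
  let M : Matrix (Fin n) (Fin n) ℝ := fun i j => σ j (b i)
  have hdet : M.det ≠ 0 := by
    intro h
    obtain ⟨a, ha, hM⟩ := Matrix.exists_mulVec_eq_zero_iff.2 h
    have hind : LinearIndependent ℝ fun j => ((σ j : K →* ℝ) : K → ℝ) :=
      (linearIndependent_monoidHom K ℝ).comp (fun j => (σ j : K →* ℝ))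
        fun x y hxy => hσ (RingHom.coe_monoidHom_injective hxy)
    let T : K →ₗ[ℚ] ℝ := ∑ j, a j • (σ j).toRatAlgHom.toLinearMap
    have hT : T = 0 := b.ext fun i => by
      have := congrFun hM i
      simp [T, M, mulVec, dotProduct] at this ⊢
      simpa [mul_comm] using this
    apply ha
    funext j
    exact Fintype.linearIndependent_iff.1 hind a (funext fun x => by
      have := LinearMap.congr_fun hT x
      simpa [T] using this) j
  set c : ℝ := (|M.det| ^ ((n : ℝ)⁻¹))⁻¹ with hc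
  have habs : 0 < |M.det| := abs_pos.2 hdet
  have hc0 : 0 < c := inv_pos.2 (Real.rpow_pos_of_pos habs _)
  have hcn : c ^ n = |M.det|⁻¹ := by
    rw [hc, inv_pow, Real.rpow_inv_natCast_pow habs.le (by omega)]
  let j0 : Fin n := ⟨0, hn⟩
  let w : Fin n → ℝ := Function.update 1 j0 (if 0 < M.det then 1 else -1)
  have hw : ∀ j, w j = 1 ∨ w j = -1 := by
    intro j
    by_cases hj : j = j0
    · subst hj; simp only [w, Function.update_self]; split_ifs <;> simp
    · simp [w, hj]
  let g0 : Matrix (Fin n) (Fin n) ℝ := c • (M * diagonal w)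
  have hg0 : g0.det = 1 := by
    simp only [g0, det_smul, det_mul, det_diagonal, Fintype.card_fin, hcn]
    rw [show ∏ j, w j = if 0 < M.det then (1 : ℝ) else -1 by
      simp [w, Finset.prod_update_of_mem]]
    split_ifs with h
    · rw [abs_of_pos h, mul_one, inv_mul_cancel₀ hdet]
    · rw [abs_of_neg (lt_of_le_of_ne (not_lt.1 h) hdet)]
      field_simp
  refine ⟨proj ⟨g0, hg0⟩, ⟨g0, hg0⟩, rfl, I, c, hc0, w, hw, 0, by simp, ?_⟩
  have hrange : Set.range b = Set.range (basisOfFractionalIdeal K I) :=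
    Module.Basis.range_reindex _ _
  have hval : ∀ (z : Fin n → ℤ) (j : Fin n), vecMul (fun i => (z i : ℝ)) g0 j
      = c * w j * Real.exp ((0 : Fin n → ℝ) j) * σ j (∑ i, z i • b i) := by
    intro z j
    simp only [g0, vecMul, dotProduct, Matrix.smul_apply, mul_diagonal, smul_eq_mul, map_sum,
      zsmul_eq_mul, map_mul, map_intCast, Pi.zero_apply, Real.exp_zero, mul_one, Finset.mul_sum]
    exact Finset.sum_congr rfl fun i _ => by simp only [M]; ring
  have hmem : ∀ α : K, α ∈ (I : FractionalIdeal (𝓞 K)⁰ K) ↔ ∃ z : Fin n → ℤ, ∑ i, z i • b i = α :=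
    fun α => by
      rw [← Submodule.mem_span_range_iff_exists_fun, hrange]
      exact (mem_span_basisOfFractionalIdeal K).symm
  ext v
  constructor
  · rintro ⟨z, rfl⟩
    exact ⟨_, (hmem _).2 ⟨z, rfl⟩, funext fun j => (hval z j).symm⟩
  · rintro ⟨α, hα, rfl⟩
    obtain ⟨z, rfl⟩ := (hmem α).1 hα
    exact ⟨z, funext fun j => (hval z j).symm⟩

end Field

/-- Composite degree. -/
theorem not_equidistributed (n : ℕ) (hn : 4 ≤ n) (hcomp : ¬ n.Prime) :
    ∃ (K : ℕ → IntermediateField ℚ ℂ) (hK : ∀ i, NumberField (K i)),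
      (∀ i, IsTotallyReal (K i) ∧ Module.finrank ℚ (K i) = n) ∧
      Tendsto (fun i => |@NumberField.discr (K i) _ (hK i)|) atTop atTop ∧
      ∃ f : LatticeSpace n → ℝ, Continuous f ∧ HasCompactSupport f ∧ (∀ x, 0 ≤ f x) ∧
        (∃ x, 0 < f x) ∧
        ∀ σ : ∀ i, Fin n → (↥(K i) →+* ℝ), (∀ i, Function.Bijective (σ i)) →
          (∀ i, (@packet n (K i) _ (hK i) (σ i)).Nonempty ∧
            ∀ x ∈ @packet n (K i) _ (hK i) (σ i), f x = 0) ∧
          ∀ [MeasurableSpace (LatticeSpace n)] [BorelSpace (LatticeSpace n)]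
            (m : Measure (LatticeSpace n)) [IsProbabilityMeasure m],
            (∀ h : SLR n, m.map (rmul h) = m) →
            0 < ∫ x, f x ∂m ∧
            ∀ μ : ℕ → Measure (LatticeSpace n), (∀ i, IsProbabilityMeasure (μ i)) →
              (∀ i, μ i (@packet n (K i) _ (hK i) (σ i))ᶜ = 0) →
              (∀ i, ∫ x, f x ∂μ i = 0) ∧
              ¬ Tendsto (fun i => ∫ x, f x ∂μ i) atTop (𝓝 (∫ x, f x ∂m)) := by
  obtain ⟨d, hdn, hd2, hdlt⟩ := Nat.exists_dvd_of_not_prime2 (by omega : 2 ≤ n) hcomp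
  obtain ⟨k, rfl⟩ := hdn
  have hk : 2 ≤ k := by
    rcases Nat.lt_or_ge k 2 with h | h
    · interval_cases k <;> omega
    · exact h
  obtain ⟨F, K, hK, hFd, hFK, hdeg, hdisc⟩ := exists_fields hd2 hk
  refine ⟨K, hK, hdeg, hdisc, ?_⟩
  have hFne : F ≠ ⊥ := fun h => by
    rw [h, IntermediateField.finrank_bot] at hFd
    omega
  obtain ⟨x, hxF, hx⟩ := SetLike.exists_of_lt (bot_lt_iff_ne_bot.2 hFne)
  have : FiniteDimensional ℚ F := Module.finite_of_finrank_pos (by omega)
  have halg : IsAlgebraic ℤ x :=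
    (IsFractionRing.isAlgebraic_iff ℤ ℚ ℂ).2
      (IntermediateField.isAlgebraic_iff.1 (Algebra.IsAlgebraic.isAlgebraic (⟨x, hxF⟩ : F)))
  obtain ⟨y, hy, hint⟩ := halg.exists_integral_multiple
  set θ : ℂ := y • x with hθ
  have hθF : θ ∈ F := zsmul_mem hxF y
  have hθz : ∀ z : ℤ, θ ≠ z := by
    intro z hz
    apply hx
    refine IntermediateField.mem_bot.2 ⟨(z : ℚ) / y, ?_⟩
    have hy' : (y : ℂ) ≠ 0 := by exact_mod_cast hy
    rw [hθ, zsmul_eq_mul] at hz
    simp only [eq_ratCast, Rat.cast_div, Rat.cast_intCast]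
    rw [← hz]
    field_simp
  set p := minpoly ℤ θ with hp
  have hp0 : p ≠ 0 := minpoly.ne_zero hint
  set R : Set (Fin (d * k) → ℝ) :=
    Set.univ.pi fun _ => {r : ℝ | Polynomial.aeval r p = 0 ∧ ∀ z : ℤ, r ≠ z} with hR
  have hRfin : R.Finite := Set.Finite.pi fun _ =>
    ((p.rootSet_finite ℝ).subset fun r hr => by
      rw [Polynomial.mem_rootSet_of_ne hp0]; exact hr.1)
  have hRz : ∀ r ∈ R, ∀ j, ∀ z : ℤ, r j ≠ z := fun r hr j => (hr j trivial).2
  have hone := one_not_mem (by omega) hRz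
  obtain ⟨hT2, hLC, hSC⟩ := space_facts (d * k)
  obtain ⟨f, hf1, hf0, hfc, hfI⟩ := exists_continuous_one_zero_of_isCompact
    (isCompact_singleton (x := proj (1 : SLR (d * k)))) (isClosed_stableSet hRfin)
    (disjoint_singleton_left.2 hone)
  refine ⟨f, f.continuous, hfc, fun x => (hfI x).1,
    ⟨proj (1 : SLR (d * k)), by rw [hf1 rfl]; exact one_pos⟩, fun σ hσ => ⟨fun i => ?_, ?_⟩⟩
  all_goals
    have hzero : ∀ i, ∀ x ∈ @packet (d * k) (K i) _ (hK i) (σ i), f x = 0 := by
      intro i x hxp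
      have := hK i
      let θ' : K i := ⟨θ, hFK i hθF⟩
      have haev : Polynomial.aeval θ' p = 0 := by
        apply Subtype.val_injective
        have := Polynomial.aeval_algHom_apply ((K i).val.restrictScalars ℤ) θ' p
        simp only [AlgHom.coe_restrictScalars', IntermediateField.coe_val] at this
        rw [← this]
        exact minpoly.aeval ℤ θ
      have hint' : IsIntegral ℤ θ' := ⟨p, minpoly.monic hint, by
        rw [← Polynomial.aeval_def]; exact haev⟩
      refine hf0 (packet_subset (σ i) (θ := ⟨θ', hint'⟩) (fun j _ => ⟨?_, fun z hz => ?_⟩) hxp)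
      · show Polynomial.aeval (σ i j θ') p = 0
        have := Polynomial.aeval_algHom_apply (σ i j).toIntAlgHom θ' p
        rw [haev, map_zero] at this
        exact this
      · have h2 : θ' = (z : K i) := (σ i j).injective (by rw [map_intCast]; exact hz)
        exact hθz z (congrArg Subtype.val h2 |>.trans (by simp))
  · exact ⟨@packet_nonempty (d * k) (K i) _ (hK i) (by omega) (σ i) (hσ i).1 (hdeg i).2, hzero i⟩
  intro _ _ m _ hm
  have hpos : 0 < ∫ x, f x ∂m := by
    rw [integral_pos_iff_support_of_nonneg (fun x => (hfI x).1)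
      (f.continuous.integrable_of_hasCompactSupport hfc)]
    set V := Function.support f with hV
    have hVo : IsOpen V := isOpen_compl_singleton.preimage f.continuous
    by_contra h0
    replace h0 : m V = 0 := le_antisymm (not_lt.1 h0) zero_le
    have hcov : ⋃ h : SLR (d * k), rmul h ⁻¹' V = univ := by
      refine eq_univ_of_forall fun x => ?_
      induction x using Quotient.inductionOn' with
      | h g =>
        refine mem_iUnion.2 ⟨g⁻¹, ?_⟩
        show f (proj (g * g⁻¹)) ≠ 0
        rw [mul_inv_cancel, hf1 rfl]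
        exact one_ne_zero
    obtain ⟨T, hTc, hT⟩ := TopologicalSpace.isOpen_iUnion_countable
      (fun h : SLR (d * k) => rmul h ⁻¹' V) fun h => hVo.preimage (continuous_rmul h)
    have hnull : m (⋃ h ∈ T, rmul h ⁻¹' V) = 0 := (measure_biUnion_null_iff hTc).2 fun h _ => by
      rw [← Measure.map_apply (continuous_rmul h).measurable hVo.measurableSet, hm, h0]
    rw [hT, hcov, measure_univ] at hnull
    exact one_ne_zero hnull
  refine ⟨hpos, fun μ hμ hμP => ?_⟩
  have hint0 : ∀ i, ∫ x, f x ∂μ i = 0 := fun i => by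
    refine integral_eq_zero_of_ae ?_
    rw [EventuallyEq, ae_iff]
    exact measure_mono_null (fun x hx hxp => hx (hzero i x hxp)) (hμP i)
  exact ⟨hint0, fun hlim => hpos.ne'
    (tendsto_nhds_unique hlim (by simp [hint0]))⟩

end Vale.Agent.P007
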